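import Vale.Agent.P237.Petty.LinearCriterion

/-!
# P237: the exact form of the linear functional on the half line

For any slope field `κ` the two slope dependent integrands of the linear functional split into a
part that is linear in the slope and a remainder with an explicit sign. The linear part is the
derivative of a polynomial potential, and the facet term cancels its end value.
-/

namespace Vale.Agent.P237.Petty.Ident

open MeasureTheory Set Filter Topology intervalIntegral

/-- The part of the tangent form free of the slope. -/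
noncomputable def tangentT (p : ℕ) (M1 M2 κ t g : ℝ) : ℝ :=
  -M2 * κ ^ 2 * g ^ (p + 1) - M1 * (1 - κ ^ 2 * t ^ 2) * g ^ (p - 1)

/-- The slope coefficient of the tangent form. -/
noncomputable def slopeG (p : ℕ) (M1 M2 κ t g : ℝ) : ℝ :=
  M2 * (2 * κ - κ ^ 2 * t) * g ^ p + M1 * t * (1 - κ * t) ^ 2 * g ^ (p - 2)

/-- The remainder of the tangent form. -/
noncomputable def gain (p : ℕ) (M1 M2 κ t g q : ℝ) : ℝ :=
  g ^ (p - 2) * (M2 * g ^ 2 - M1 * t ^ 2) * (q - κ * (g + t * q)) ^ 2 / (g + t * q)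

/-- The potential of the slope coefficient. -/
noncomputable def pot (p : ℕ) (M1 M2 κ t g : ℝ) : ℝ :=
  M2 * (2 * κ - κ ^ 2 * t) * g ^ (p + 1) / ((p : ℝ) + 1) +
    M1 * t * (1 - κ * t) ^ 2 * g ^ (p - 1) / ((p : ℝ) - 1)

/-- The derivative of the potential in the abscissa. -/
noncomputable def potT (p : ℕ) (M1 M2 κ t g : ℝ) : ℝ :=
  -M2 * κ ^ 2 * g ^ (p + 1) / ((p : ℝ) + 1) +
    M1 * (1 - κ * t) * (1 - 3 * κ * t) * g ^ (p - 1) / ((p : ℝ) - 1)

/-- The derivative of the potential in the field. -/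
noncomputable def potK (p : ℕ) (M1 M2 κ t g : ℝ) : ℝ :=
  2 * M2 * (1 - κ * t) * g ^ (p + 1) / ((p : ℝ) + 1) -
    2 * M1 * t ^ 2 * (1 - κ * t) * g ^ (p - 1) / ((p : ℝ) - 1)

/-- The integrand free of the slope. -/
noncomputable def field (p : ℕ) (M1 M2 κ κ' t g : ℝ) : ℝ :=
  g ^ p + tangentT p M1 M2 κ t g + potT p M1 M2 κ t g + potK p M1 M2 κ t g * κ'

/-- The tangent split of the slope terms. -/
theorem split {p : ℕ} (hp : 2 ≤ p) (M1 M2 κ t g q : ℝ) (hD : g + t * q ≠ 0) :
    g ^ p * (-M1 + M2 * q ^ 2) / (g + t * q) =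
      tangentT p M1 M2 κ t g + slopeG p M1 M2 κ t g * q + gain p M1 M2 κ t g q := by
  obtain ⟨j, rfl⟩ : ∃ j, p = j + 2 := ⟨p - 2, by omega⟩
  simp only [tangentT, slopeG, gain, show j + 2 - 1 = j + 1 from rfl,
    show j + 2 - 2 = j from rfl, pow_succ]
  rw [add_div' _ _ _ hD]
  congr 1
  ring

/-- The derivative of the potential along a curve. -/
theorem hasDerivWithinAt_pot {p : ℕ} (hp : 2 ≤ p) (M1 M2 : ℝ) {κ g : ℝ → ℝ} {κ' g' t : ℝ}
    {S : Set ℝ} (hκ : HasDerivWithinAt κ κ' S t) (hg : HasDerivWithinAt g g' S t) :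
    HasDerivWithinAt (fun x => pot p M1 M2 (κ x) x (g x))
      (potT p M1 M2 (κ t) t (g t) + potK p M1 M2 (κ t) t (g t) * κ' +
        slopeG p M1 M2 (κ t) t (g t) * g') S t := by
  obtain ⟨j, rfl⟩ : ∃ j, p = j + 2 := ⟨p - 2, by omega⟩
  have hid : HasDerivWithinAt (fun x : ℝ => x) 1 S t := (hasDerivAt_id t).hasDerivWithinAt
  have a := (((hκ.const_mul 2).fun_sub ((hκ.fun_pow 2).fun_mul hid)).const_mul M2).fun_mul
    (hg.fun_pow (j + 2 + 1))
  have b := ((hid.const_mul M1).fun_mul (((hκ.fun_mul hid).const_sub 1).fun_pow 2)).fun_mul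
    (hg.fun_pow (j + 1))
  have h := (a.div_const (((j + 2 : ℕ) : ℝ) + 1)).fun_add (b.div_const (((j + 2 : ℕ) : ℝ) - 1))
  refine h.congr_deriv ?_
  have h1 : ((j + 2 : ℕ) : ℝ) - 1 ≠ 0 := by
    have := Nat.cast_nonneg (α := ℝ) j
    push_cast
    linarith
  have h2 : ((j + 2 : ℕ) : ℝ) + 1 ≠ 0 := by positivity
  simp only [potT, potK, slopeG, show j + 2 - 1 = j + 1 from rfl, show j + 2 - 2 = j from rfl,
    show j + 2 + 1 - 1 = j + 2 from rfl, show j + 1 - 1 = j from rfl]
  push_cast at h1 h2 ⊢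
  field_simp
  ring

variable {g : ℝ → ℝ}

/-- A regular profile is differentiable almost everywhere on the half line. -/
theorem ae_differentiableAt (hg : Regular g) :
    ∀ᵐ t ∂volume, t ∈ Ioo (0 : ℝ) 1 → DifferentiableAt ℝ g t := by
  have h : MonotoneOn (fun t => -g t) (Icc 0 1) :=
    (antitoneOn_of_concave_even hg.concave hg.even).neg
  filter_upwards [h.ae_differentiableWithinAt_of_mem] with t ht hto
  have := ((ht (Ioo_subset_Icc_self hto)).differentiableAt (Icc_mem_nhds hto.1 hto.2)).neg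
  simpa using this

/-- Almost everywhere the right slope is odd. -/
theorem ae_slopeR_neg (hg : Regular g) :
    ∀ᵐ t ∂volume, t ∈ Ioo (0 : ℝ) 1 → slopeR g (-t) = -slopeR g t := by
  filter_upwards [ae_differentiableAt hg] with t ht hto
  have hd := (ht hto).hasDerivAt
  have hn : HasDerivAt g (-deriv g t) (-t) := by
    have h0 : HasDerivAt g (deriv g t) (- -t) := by rwa [neg_neg]
    have h1 := h0.comp (-t) (hasDerivAt_neg (-t))
    rw [mul_neg_one] at h1
    refine h1.congr_of_eventuallyEq (Eventually.of_forall fun x => ?_)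
    exact (hg.even x).symm
  rw [slopeR, slopeR, hn.hasDerivWithinAt.derivWithin (uniqueDiffWithinAt_Ioi _),
    hd.hasDerivWithinAt.derivWithin (uniqueDiffWithinAt_Ioi _)]

/-- An integral over the interval of a function which is even almost everywhere. -/
theorem integral_ae_even {u : ℝ → ℝ} (hi : IntervalIntegrable u volume (-1) 1)
    (he : ∀ᵐ t ∂volume, t ∈ Ioo (0 : ℝ) 1 → u (-t) = u t) :
    ∫ t in (-1 : ℝ)..1, u t = 2 * ∫ t in (0 : ℝ)..1, u t := by
  have hsub : ∀ a b : ℝ, -1 ≤ a → a ≤ b → b ≤ 1 → IntervalIntegrable u volume a b :=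
    fun a b ha hab hb => hi.mono_set (by
      rw [uIcc_of_le hab, uIcc_of_le (by norm_num)]; exact Icc_subset_Icc ha hb)
  rw [← intervalIntegral.integral_add_adjacent_intervals (hsub (-1) 0 le_rfl (by norm_num)
    zero_le_one) (hsub 0 1 (by norm_num) zero_le_one le_rfl), two_mul]
  congr 1
  have h := intervalIntegral.integral_comp_neg u (a := 0) (b := 1)
  rw [neg_zero] at h
  rw [← h]
  refine intervalIntegral.integral_congr_ae ?_
  filter_upwards [he, Measure.ae_ne volume (1 : ℝ)] with t ht h1 hts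
  rw [uIoc_of_le zero_le_one] at hts
  exact ht ⟨hts.1, lt_of_le_of_ne hts.2 h1⟩

/-- The Fisher integrand along the axis is integrable. -/
theorem integrable_jInt (hg : Regular g) (p : ℕ) :
    IntervalIntegrable (fun t => g t ^ p * slopeR g t ^ 2 / icept g t) volume (-1) 1 := by
  have hs := hg.integrable_slopeR
  have hm := (intervalIntegrable_iff.1 hs).aestronglyMeasurable
  have hb := (hs.continuousOn_mul (g := fun t => g t ^ p)
    (by rw [uIcc_of_le (by norm_num)]; exact hg.cont.pow p)).norm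
  rw [intervalIntegrable_iff, uIoc_of_le (by norm_num : (-1 : ℝ) ≤ 1)] at hb ⊢
  rw [uIoc_of_le (by norm_num : (-1 : ℝ) ≤ 1)] at hm
  have hfm : AEStronglyMeasurable g (volume.restrict (Ioc (-1 : ℝ) 1)) :=
    (hg.cont.mono Ioc_subset_Icc_self).aestronglyMeasurable measurableSet_Ioc
  have hD : AEStronglyMeasurable (icept g) (volume.restrict (Ioc (-1 : ℝ) 1)) :=
    hfm.sub (continuous_id.aestronglyMeasurable.mul hm)
  refine Integrable.mono' hb
    ((((hfm.pow p).mul (hm.pow 2)).aemeasurable.div hD.aemeasurable).aestronglyMeasurable) ?_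
  filter_upwards [ae_restrict_mem measurableSet_Ioc,
    ae_restrict_of_ae (Measure.ae_ne volume (1 : ℝ))] with t ht h1
  have hto : t ∈ Ioo (-1 : ℝ) 1 := ⟨ht.1, lt_of_le_of_ne ht.2 h1⟩
  have hDp := hg.icept_pos hto
  simp only [norm_mul, norm_div, Real.norm_eq_abs, abs_pow, abs_of_pos hDp]
  rw [div_le_iff₀ hDp, mul_assoc]
  refine mul_le_mul_of_nonneg_left ?_ (by positivity)
  rw [sq]
  exact mul_le_mul_of_nonneg_left (hg.abs_slope_le hto) (abs_nonneg _)

/-- The slope integrands of a profile on the half line. -/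
noncomputable def slopeTerm (p : ℕ) (M1 M2 : ℝ) (g : ℝ → ℝ) (t : ℝ) : ℝ :=
  g t ^ p * (-M1 + M2 * slopeR g t ^ 2) / icept g t

theorem integrable_slopeTerm (hg : Regular g) (p : ℕ) (M1 M2 : ℝ) :
    IntervalIntegrable (slopeTerm p M1 M2 g) volume (-1) 1 := by
  refine (((hg.integrable_pi p).const_mul (-M1)).add
    ((integrable_jInt hg p).const_mul M2)).congr fun t _ => ?_
  simp only [slopeTerm]
  ring

/-- The exact identity: the facet term cancels the end value of the potential. -/
theorem identity (hg : Regular g) {p : ℕ} (hp : 2 ≤ p) (M1 M2 : ℝ) {κ κ' : ℝ → ℝ}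
    (hκc : ContinuousOn κ (Icc 0 1)) (hκ0 : κ 0 = 0) (hκ1 : κ 1 = 1)
    (hκd : ∀ t ∈ Ioo (0 : ℝ) 1, HasDerivWithinAt κ (κ' t) (Ioi t) t)
    (hκi : IntervalIntegrable κ' volume 0 1) :
    IntervalIntegrable (fun t => field p M1 M2 (κ t) (κ' t) t (g t) +
        gain p M1 M2 (κ t) t (g t) (-slopeR g t)) volume 0 1 ∧
      (∫ t in (0 : ℝ)..1, g t ^ p + slopeTerm p M1 M2 g t) +
          M2 * g 1 ^ (p + 1) / ((p : ℝ) + 1) =
        ∫ t in (0 : ℝ)..1, field p M1 M2 (κ t) (κ' t) t (g t) +
          gain p M1 M2 (κ t) t (g t) (-slopeR g t) := by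
  have hu : uIcc (0 : ℝ) 1 = Icc 0 1 := uIcc_of_le zero_le_one
  have hgc : ContinuousOn g (Icc 0 1) := hg.cont.mono (Icc_subset_Icc (by norm_num) le_rfl)
  have hp0 : ((p : ℝ) - 1) ≠ 0 := by
    have : (2 : ℝ) ≤ p := by exact_mod_cast hp
    linarith
  have hs : IntervalIntegrable (slopeR g) volume 0 1 := hg.integrable_slopeR.mono_set (by
    rw [hu, uIcc_of_le (by norm_num)]; exact Icc_subset_Icc (by norm_num) le_rfl)
  have hst : IntervalIntegrable (slopeTerm p M1 M2 g) volume 0 1 :=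
    (integrable_slopeTerm hg p M1 M2).mono_set (by
      rw [hu, uIcc_of_le (by norm_num)]; exact Icc_subset_Icc (by norm_num) le_rfl)
  set Φ := fun t => pot p M1 M2 (κ t) t (g t)
  set Φ' := fun t => potT p M1 M2 (κ t) t (g t) + potK p M1 M2 (κ t) t (g t) * κ' t +
    slopeG p M1 M2 (κ t) t (g t) * slopeR g t
  have hΦi : IntervalIntegrable Φ' volume 0 1 := by
    refine (((ContinuousOn.intervalIntegrable ?_).add (hκi.continuousOn_mul ?_)).add
      (hs.continuousOn_mul ?_))
    all_goals rw [hu]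
    all_goals simp only [potT, potK, slopeG]
    all_goals fun_prop
  have hΦc : ContinuousOn Φ (Icc 0 1) := by simp only [Φ, pot]; fun_prop
  have key := integral_eq_sub_of_hasDeriv_right_of_le (f := Φ) (f' := Φ') zero_le_one hΦc
    (fun t ht => hasDerivWithinAt_pot hp M1 M2 (hκd t ht)
      (hasDerivWithinAt_slopeR hg.concave ⟨by linarith [ht.1], ht.2⟩)) hΦi
  have hend : Φ 1 - Φ 0 = M2 * g 1 ^ (p + 1) / ((p : ℝ) + 1) := by
    simp only [Φ, pot, hκ0, hκ1]
    ring
  have hlhs : IntervalIntegrable (fun t => g t ^ p + slopeTerm p M1 M2 g t) volume 0 1 :=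
    (ContinuousOn.intervalIntegrable (by rw [hu]; exact hgc.pow p)).add hst
  have hae : (fun t => g t ^ p + slopeTerm p M1 M2 g t + Φ' t) =ᵐ[volume.restrict (uIoc (0 : ℝ) 1)]
      fun t => field p M1 M2 (κ t) (κ' t) t (g t) +
        gain p M1 M2 (κ t) t (g t) (-slopeR g t) := by
    rw [uIoc_of_le zero_le_one]
    filter_upwards [ae_restrict_mem measurableSet_Ioc,
      ae_restrict_of_ae (Measure.ae_ne volume (1 : ℝ))] with t ht h1
    have hto : t ∈ Ioo (-1 : ℝ) 1 := ⟨by linarith [ht.1], lt_of_le_of_ne ht.2 h1⟩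
    have hD : g t + t * -slopeR g t ≠ 0 := by
      have := hg.icept_pos hto
      unfold icept at this
      intro h
      linarith
    have h := split hp M1 M2 (κ t) t (g t) (-slopeR g t) hD
    have e : slopeTerm p M1 M2 g t =
        g t ^ p * (-M1 + M2 * (-slopeR g t) ^ 2) / (g t + t * -slopeR g t) := by
      rw [slopeTerm, icept, neg_sq]
      ring_nf
    simp only [Φ', field]
    rw [e, h]
    ring
  refine ⟨(hlhs.add hΦi).congr_ae hae, ?_⟩
  rw [← hend, ← key, ← intervalIntegral.integral_add hlhs hΦi]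
  refine intervalIntegral.integral_congr_ae ?_
  have := (ae_restrict_iff' measurableSet_uIoc).1 hae
  filter_upwards [this] with t ht htI using ht htI

/-- The integral of a power of the circle on the half line. -/
noncomputable def half (j : ℕ) : ℝ := ∫ t in (0 : ℝ)..1, √(1 - t ^ 2) ^ j

theorem circ_eq_half (j : ℕ) : circ j = 2 * half j :=
  integral_even (fun t => by rw [neg_sq]) (Continuous.intervalIntegrable (by fun_prop) _ _)

theorem half_pos (j : ℕ) : 0 < half j := by
  have := circ_eq_half j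
  linarith [circ_pos j]

theorem half_step (j : ℕ) : ((j : ℝ) + 3) * half (j + 2) = ((j : ℝ) + 2) * half j := by
  have := circle_step j
  rw [show (∫ t in (-1 : ℝ)..1, √(1 - t ^ 2) ^ (j + 2)) = circ (j + 2) from rfl,
    show (∫ t in (-1 : ℝ)..1, √(1 - t ^ 2) ^ j) = circ j from rfl, circ_eq_half, circ_eq_half] at this
  linarith

/-- The ratio of the two half circle integrals. -/
noncomputable def b0 (p : ℕ) : ℝ := half (p + 1) / half p

theorem b0_pos (p : ℕ) : 0 < b0 p := div_pos (half_pos _) (half_pos _)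

/-- The coefficient of the Fisher integrand of the section. -/
noncomputable def coefPi (p : ℕ) (mu : ℝ) : ℝ := mu / (2 * b0 p)

/-- The coefficient of the Fisher integrand along the axis. -/
noncomputable def coefJ (p : ℕ) (nu : ℝ) : ℝ := nu / b0 p

/-- The value of the half line functional at the circle. -/
noncomputable def circleValue (p : ℕ) (mu nu : ℝ) : ℝ :=
  half p - coefPi p mu * half (p + 1) + coefJ p nu * half (p + 1) / ((p : ℝ) + 1)

/-- The linear functional as an integral over the half line. -/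
theorem linearForm_eq (hg : Regular g) (p : ℕ) (mu nu s : ℝ) :
    half p / ((p : ℝ) + 1) * linearForm p mu nu g s =
      (∫ t in (0 : ℝ)..1, g t ^ p + slopeTerm p (coefPi p mu) (coefJ p nu) g t) +
        coefJ p nu * g 1 ^ (p + 1) / ((p : ℝ) + 1) - circleValue p mu nu +
        mu * half p / ((p : ℝ) + 2) * (1 - s) := by
  have hsub : uIcc (0 : ℝ) 1 ⊆ uIcc (-1 : ℝ) 1 := by
    rw [uIcc_of_le zero_le_one, uIcc_of_le (by norm_num)]
    exact Icc_subset_Icc (by norm_num) le_rfl
  have hev : ∀ᵐ t ∂volume, t ∈ Ioo (0 : ℝ) 1 → icept g (-t) = icept g t := by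
    filter_upwards [ae_slopeR_neg hg] with t ht hto
    rw [icept, icept, ht hto, hg.even]
    ring
  have hA : ∫ t in (-1 : ℝ)..1, g t ^ p = 2 * ∫ t in (0 : ℝ)..1, g t ^ p :=
    integral_even (fun t => by rw [hg.even]) (ContinuousOn.intervalIntegrable (by
      rw [uIcc_of_le (by norm_num)]; exact hg.cont.pow p))
  have hP : piInt p g = 2 * ∫ t in (0 : ℝ)..1, g t ^ p / icept g t :=
    integral_ae_even (hg.integrable_pi p) (by
      filter_upwards [hev] with t ht hto
      rw [ht hto, hg.even])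
  have hJ : ∫ t in (-1 : ℝ)..1, g t ^ p * slopeR g t ^ 2 / icept g t =
      2 * ∫ t in (0 : ℝ)..1, g t ^ p * slopeR g t ^ 2 / icept g t :=
    integral_ae_even (integrable_jInt hg p) (by
      filter_upwards [hev, ae_slopeR_neg hg] with t ht ht' hto
      rw [ht hto, ht' hto, hg.even, neg_sq])
  have iA : IntervalIntegrable (fun t => g t ^ p) volume 0 1 :=
    ContinuousOn.intervalIntegrable (by
      rw [uIcc_of_le zero_le_one]; exact (hg.cont.mono (Icc_subset_Icc (by norm_num) le_rfl)).pow p)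
  have iP := (hg.integrable_pi p).mono_set hsub
  have iJ := (integrable_jInt hg p).mono_set hsub
  have hS : (∫ t in (0 : ℝ)..1, g t ^ p + slopeTerm p (coefPi p mu) (coefJ p nu) g t) =
      (∫ t in (0 : ℝ)..1, g t ^ p) - coefPi p mu * (∫ t in (0 : ℝ)..1, g t ^ p / icept g t) +
        coefJ p nu * ∫ t in (0 : ℝ)..1, g t ^ p * slopeR g t ^ 2 / icept g t := by
    rw [← intervalIntegral.integral_const_mul, ← intervalIntegral.integral_const_mul,
      ← intervalIntegral.integral_sub iA (iP.const_mul _),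
      ← intervalIntegral.integral_add (iA.sub (iP.const_mul _)) (iJ.const_mul _)]
    refine intervalIntegral.integral_congr fun t _ => ?_
    simp only [slopeTerm]
    ring
  rw [linearForm, jInt, hA, hP, hJ, hS, circ_eq_half, circ_eq_half, circleValue, coefPi, coefJ, b0]
  have h1 := (half_pos p).ne'
  have h2 := (half_pos (p + 1)).ne'
  field_simp
  ring

/-- The budget of the obstacle: a weight of small enough total pays below the circle. -/
theorem budget (hg : Regular g) (p : ℕ) {mu s : ℝ} (hs : s ≤ 1)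
    (hge : ∀ t ∈ Icc (-1 : ℝ) 1, s * √(1 - t ^ 2) ≤ g t) {w : ℝ → ℝ} (hw : Continuous w)
    (hw0 : ∀ t ∈ Icc (0 : ℝ) 1, 0 ≤ w t)
    (htot : (∫ t in (0 : ℝ)..1, w t * √(1 - t ^ 2)) ≤ mu * half p / ((p : ℝ) + 2)) :
    ∫ t in (0 : ℝ)..1, w t * (√(1 - t ^ 2) - g t) ≤
      mu * half p / ((p : ℝ) + 2) * (1 - s) := by
  have hgc : ContinuousOn g (Icc 0 1) := hg.cont.mono (Icc_subset_Icc (by norm_num) le_rfl)
  calc ∫ t in (0 : ℝ)..1, w t * (√(1 - t ^ 2) - g t)
      ≤ ∫ t in (0 : ℝ)..1, w t * √(1 - t ^ 2) * (1 - s) := by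
        refine intervalIntegral.integral_mono_on zero_le_one
          (ContinuousOn.intervalIntegrable (by rw [uIcc_of_le zero_le_one]; fun_prop))
          (Continuous.intervalIntegrable (by fun_prop) _ _) fun t ht => ?_
        rw [mul_assoc]
        refine mul_le_mul_of_nonneg_left ?_ (hw0 t ht)
        have := hge t ⟨by linarith [ht.1], ht.2⟩
        linarith
    _ ≤ _ := by
        rw [intervalIntegral.integral_mul_const]
        exact mul_le_mul_of_nonneg_right htot (by linarith)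

/-- The linear functional is bounded below by the slope free field plus the remainder. -/
theorem linear_lower (hg : Regular g) {p : ℕ} (hp : 2 ≤ p) {mu nu s : ℝ} (hs : s ≤ 1)
    (hge : ∀ t ∈ Icc (-1 : ℝ) 1, s * √(1 - t ^ 2) ≤ g t) {w : ℝ → ℝ} (hw : Continuous w)
    (hw0 : ∀ t ∈ Icc (0 : ℝ) 1, 0 ≤ w t)
    (htot : (∫ t in (0 : ℝ)..1, w t * √(1 - t ^ 2)) ≤ mu * half p / ((p : ℝ) + 2))
    {κ κ' : ℝ → ℝ} (hκc : ContinuousOn κ (Icc 0 1)) (hκ0 : κ 0 = 0) (hκ1 : κ 1 = 1)
    (hκd : ∀ t ∈ Ioo (0 : ℝ) 1, HasDerivWithinAt κ (κ' t) (Ioi t) t)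
    (hκi : IntervalIntegrable κ' volume 0 1) :
    (∫ t in (0 : ℝ)..1, field p (coefPi p mu) (coefJ p nu) (κ t) (κ' t) t (g t) +
          gain p (coefPi p mu) (coefJ p nu) (κ t) t (g t) (-slopeR g t) +
          w t * (√(1 - t ^ 2) - g t)) - circleValue p mu nu ≤
      half p / ((p : ℝ) + 1) * linearForm p mu nu g s := by
  obtain ⟨hi, hid⟩ := identity hg hp (coefPi p mu) (coefJ p nu) hκc hκ0 hκ1 hκd hκi
  have hgc : ContinuousOn g (Icc 0 1) := hg.cont.mono (Icc_subset_Icc (by norm_num) le_rfl)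
  rw [intervalIntegral.integral_add hi (ContinuousOn.intervalIntegrable (by
    rw [uIcc_of_le zero_le_one]; fun_prop)), ← hid, linearForm_eq hg]
  have := budget hg p hs hge hw hw0 htot
  linarith

/-- At the circle, with the identity field, the field integrates to the circle value. -/
theorem integral_field_circle {p : ℕ} (hp : 2 ≤ p) (mu nu : ℝ) :
    ∫ t in (0 : ℝ)..1, field p (coefPi p mu) (coefJ p nu) t 1 t √(1 - t ^ 2) =
      circleValue p mu nu := by
  obtain ⟨j, rfl⟩ : ∃ j, p = j + 2 := ⟨p - 2, by omega⟩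
  set M1 := coefPi (j + 2) mu with hM1
  set M2 := coefJ (j + 2) nu with hM2
  set c := fun t : ℝ => √(1 - t ^ 2) with hc
  have hsq : ∀ t ∈ Icc (0 : ℝ) 1, t ^ 2 = 1 - c t ^ 2 := fun t ht => by
    rw [hc, Real.sq_sqrt (by nlinarith [ht.1, ht.2])]
    ring
  set Φ' := fun t => potT (j + 2) M1 M2 t t (c t) + potK (j + 2) M1 M2 t t (c t) * 1 -
    t * (M2 * (2 * t - t ^ 2 * t) * c t ^ (j + 1) + M1 * t * c t ^ (j + 3))
  have hd : ∀ t ∈ Ioo (0 : ℝ) 1,
      HasDerivAt (fun t => pot (j + 2) M1 M2 t t (c t)) (Φ' t) t := by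
    intro t ht
    have h0 : 0 < 1 - t ^ 2 := by nlinarith [ht.1, ht.2]
    have hcp : 0 < c t := Real.sqrt_pos.2 h0
    have hcd : HasDerivAt c (-t / c t) t := by
      refine (((hasDerivAt_pow 2 t).const_sub 1).sqrt h0.ne').congr_deriv ?_
      simp only [hc]
      push_cast
      field_simp
    have h := (hasDerivWithinAt_pot (p := j + 2) (by omega) M1 M2
      (hasDerivAt_id t).hasDerivWithinAt (hcd.hasDerivWithinAt (s := univ)))
    rw [hasDerivWithinAt_univ] at h
    refine h.congr_deriv ?_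
    simp only [Φ', slopeG, show j + 2 - 2 = j from rfl, id_eq]
    have e : 1 - t * t = c t ^ 2 := by
      rw [show t * t = t ^ 2 by ring, hsq t (Ioo_subset_Icc_self ht)]
      ring
    rw [e]
    field_simp
    ring
  have hcc : Continuous c := by fun_prop
  have hΦc : Continuous fun t => pot (j + 2) M1 M2 t t (c t) := by simp only [pot]; fun_prop
  have hΦ'c : Continuous Φ' := by simp only [Φ', potT, potK]; fun_prop
  have key := integral_eq_sub_of_hasDerivAt_of_le zero_le_one hΦc.continuousOn hd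
    (hΦ'c.intervalIntegrable 0 1)
  have hend : pot (j + 2) M1 M2 1 1 (c 1) - pot (j + 2) M1 M2 0 0 (c 0) = 0 := by
    simp [pot, hc]
  rw [hend] at key
  have hmain : ∫ t in (0 : ℝ)..1, field (j + 2) M1 M2 t 1 t (c t) - Φ' t =
      ∫ t in (0 : ℝ)..1, c t ^ (j + 2) - M1 * c t ^ (j + 3) +
        M2 * (c t ^ (j + 1) - c t ^ (j + 3)) := by
    refine intervalIntegral.integral_congr fun t ht => ?_
    rw [uIcc_of_le zero_le_one] at ht
    have h2 := hsq t ht
    simp only [Φ', field, tangentT, show j + 2 - 1 = j + 1 from rfl]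
    linear_combination
      (M2 * c t ^ (j + 1) * (1 - t ^ 2) + M1 * c t ^ (j + 1) * (1 + t ^ 2)) * h2
  have ic : ∀ i : ℕ, IntervalIntegrable (fun t => c t ^ i) volume 0 1 :=
    fun i => (hcc.pow i).intervalIntegrable 0 1
  rw [intervalIntegral.integral_sub ((by simp only [field, tangentT, potT, potK]; fun_prop :
      Continuous fun t => field (j + 2) M1 M2 t 1 t (c t)).intervalIntegrable 0 1)
    (hΦ'c.intervalIntegrable 0 1), key, sub_zero,
    intervalIntegral.integral_add ((ic _).sub ((ic _).const_mul _))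
      (((ic _).sub (ic _)).const_mul _),
    intervalIntegral.integral_sub (ic _) ((ic _).const_mul _),
    intervalIntegral.integral_const_mul, intervalIntegral.integral_const_mul,
    intervalIntegral.integral_sub (ic _) (ic _)] at hmain
  rw [hmain]
  have hs := half_step (j + 1)
  simp only [half] at hs ⊢
  simp only [circleValue, half, ← hM1, ← hM2]
  push_cast at hs ⊢
  have hj : (0 : ℝ) ≤ j := Nat.cast_nonneg j
  field_simp
  linear_combination -M2 * hs

/-- The stationary weight, divided by the circle. -/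
noncomputable def weight (p : ℕ) (t : ℝ) : ℝ :=
  (p : ℝ) * √(1 - t ^ 2) ^ (p - 1) * (√(1 - t ^ 2) - b0 p) ^ 2 * (√(1 - t ^ 2) + 2 * b0 p) /
    (2 * b0 p ^ 3)

/-- The multiplier at which the stationary weight uses the whole budget. -/
noncomputable def muMin (p : ℕ) : ℝ :=
  ((p : ℝ) + 2) * ((p : ℝ) / (2 * ((p : ℝ) + 4) * b0 p ^ 2)) *
    (((p : ℝ) + 4) * (1 - b0 p ^ 2) - 1)

theorem continuous_weight (p : ℕ) : Continuous (weight p) := by unfold weight; fun_prop

theorem weight_nonneg (p : ℕ) (t : ℝ) : 0 ≤ weight p t := by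
  have := b0_pos p
  unfold weight
  positivity

/-- The total of the stationary weight. -/
theorem integral_weight {p : ℕ} (hp : 1 ≤ p) :
    ∫ t in (0 : ℝ)..1, weight p t * √(1 - t ^ 2) = muMin p * half p / ((p : ℝ) + 2) := by
  obtain ⟨i, rfl⟩ : ∃ i, p = i + 1 := ⟨p - 1, by omega⟩
  set b := b0 (i + 1) with hb
  have hb0 : b ≠ 0 := (b0_pos (i + 1)).ne'
  have ic : ∀ j : ℕ, IntervalIntegrable (fun t : ℝ => √(1 - t ^ 2) ^ j) volume 0 1 :=
    fun j => Continuous.intervalIntegrable (by fun_prop) 0 1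
  have e : ∀ t : ℝ, weight (i + 1) t * √(1 - t ^ 2) = ((i : ℝ) + 1) / (2 * b ^ 3) *
      (√(1 - t ^ 2) ^ (i + 4) - 3 * b ^ 2 * √(1 - t ^ 2) ^ (i + 2) +
        2 * b ^ 3 * √(1 - t ^ 2) ^ (i + 1)) := fun t => by
    simp only [weight, Nat.add_sub_cancel, ← hb]
    push_cast
    field_simp
    ring
  simp only [e]
  rw [intervalIntegral.integral_const_mul,
    intervalIntegral.integral_add ((ic _).sub ((ic _).const_mul _)) ((ic _).const_mul _),
    intervalIntegral.integral_sub (ic _) ((ic _).const_mul _),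
    intervalIntegral.integral_const_mul, intervalIntegral.integral_const_mul]
  have hs := half_step (i + 2)
  simp only [half] at hs ⊢
  have hB : (∫ t in (0 : ℝ)..1, √(1 - t ^ 2) ^ (i + 2)) =
      b * ∫ t in (0 : ℝ)..1, √(1 - t ^ 2) ^ (i + 1) := by
    have h := (half_pos (i + 1)).ne'
    simp only [hb, b0, half] at h ⊢
    field_simp
  rw [hB] at hs ⊢
  simp only [muMin, ← hb]
  have hj : (0 : ℝ) ≤ i := Nat.cast_nonneg i
  push_cast at hs ⊢
  field_simp
  linear_combination hs

end Vale.Agent.P237.Petty.Ident
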