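import Vale.Agent.P237.Petty.Ident
import Vale.Agent.P237.Petty.Ident.Forms

/-!
# P237: the calibrated lower bound along the transport

Exact derivatives of potentials `H (s, t, g)` along a profile and its transport, the budget of an
obstacle that is quadratic in the slope, and the lower bound for the linear functional by a field
`k (s, t)`.
-/

namespace Vale.Agent.P237.Petty.Ident

open MeasureTheory Set Filter Topology

variable {p : ℕ} {g σ : ℝ → ℝ}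

/-- The speed of the transport. -/
noncomputable def rate (p : ℕ) (g σ : ℝ → ℝ) (t : ℝ) : ℝ := g t ^ (p + 1) / arc (σ t) ^ (p + 1)

/-- A profile with the volume of the circle has a transport. -/
theorem exists_transport_of_circ (hg : Regular g) (p : ℕ)
    (hvol : ∫ t in (-1 : ℝ)..1, g t ^ (p + 1) = circ (p + 1)) : ∃ σ, Transport p g σ := by
  refine exists_transport_arc p hg ?_
  rw [integral_even (fun t => by rw [hg.even]) (ContinuousOn.intervalIntegrable (by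
    rw [uIcc_of_le (by norm_num : (-1 : ℝ) ≤ 1)]; exact hg.cont.pow (p + 1))), circ_eq_half] at hvol
  exact mul_left_cancel₀ two_ne_zero hvol

/-- The derivative of a potential along a profile integrates to its end values. -/
theorem integral_potential (hg : Regular g) (hσ : Transport p g σ)
    (H Hs Ht Hg : ℝ → ℝ → ℝ → ℝ)
    (hH : ∀ s ∈ Ioo (0 : ℝ) 1, ∀ t ∈ Ioo (0 : ℝ) 1, ∀ y : ℝ, 0 < y →
      HasFDerivAt (fun x : ℝ × ℝ × ℝ => H x.1 x.2.1 x.2.2)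
        (Hs s t y • ContinuousLinearMap.fst ℝ ℝ (ℝ × ℝ) +
          Ht s t y • (ContinuousLinearMap.fst ℝ ℝ ℝ).comp (ContinuousLinearMap.snd ℝ ℝ (ℝ × ℝ)) +
          Hg s t y • (ContinuousLinearMap.snd ℝ ℝ ℝ).comp (ContinuousLinearMap.snd ℝ ℝ (ℝ × ℝ)))
        (s, t, y))
    (hHc : ContinuousOn (fun x : ℝ × ℝ × ℝ => H x.1 x.2.1 x.2.2) (Icc 0 1 ×ˢ Icc 0 1 ×ˢ Ici 0))
    (hHsc : ContinuousOn (fun x : ℝ × ℝ × ℝ => Hs x.1 x.2.1 x.2.2) (Icc 0 1 ×ˢ Icc 0 1 ×ˢ Ici 0))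
    (hHtc : ContinuousOn (fun x : ℝ × ℝ × ℝ => Ht x.1 x.2.1 x.2.2) (Icc 0 1 ×ˢ Icc 0 1 ×ˢ Ici 0))
    (hHgc : ContinuousOn (fun x : ℝ × ℝ × ℝ => Hg x.1 x.2.1 x.2.2) (Icc 0 1 ×ˢ Icc 0 1 ×ˢ Ici 0)) :
    IntervalIntegrable (fun t => Hs (σ t) t (g t) * rate p g σ t + Ht (σ t) t (g t) +
        Hg (σ t) t (g t) * slopeR g t) volume 0 1 ∧
      ∫ t in (0 : ℝ)..1, (Hs (σ t) t (g t) * rate p g σ t + Ht (σ t) t (g t) +
        Hg (σ t) t (g t) * slopeR g t) = H 1 1 (g 1) - H 0 0 (g 0) := by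
  have hu : uIcc (0 : ℝ) 1 = Icc 0 1 := uIcc_of_le zero_le_one
  have hgc : ContinuousOn g (Icc 0 1) := hg.cont.mono (Icc_subset_Icc (by norm_num) le_rfl)
  have hcurve : ContinuousOn (fun t => (σ t, t, g t)) (Icc (0 : ℝ) 1) :=
    hσ.cont.prodMk (continuousOn_id.prodMk hgc)
  have hmaps : MapsTo (fun t => (σ t, t, g t)) (Icc (0 : ℝ) 1) (Icc 0 1 ×ˢ Icc 0 1 ×ˢ Ici 0) :=
    fun t ht => ⟨hσ.mem t ht, ht, hg.nonneg t ⟨by linarith [ht.1], ht.2⟩⟩
  have cs : ContinuousOn (fun t => Hs (σ t) t (g t)) (uIcc (0 : ℝ) 1) :=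
    hu.symm ▸ hHsc.comp hcurve hmaps
  have ct : ContinuousOn (fun t => Ht (σ t) t (g t)) (uIcc (0 : ℝ) 1) :=
    hu.symm ▸ hHtc.comp hcurve hmaps
  have cg : ContinuousOn (fun t => Hg (σ t) t (g t)) (uIcc (0 : ℝ) 1) :=
    hu.symm ▸ hHgc.comp hcurve hmaps
  have hq : IntervalIntegrable (slopeR g) volume 0 1 := hg.integrable_slopeR.mono_set (by
    rw [hu, uIcc_of_le (by norm_num : (-1 : ℝ) ≤ 1)]; exact Icc_subset_Icc (by norm_num) le_rfl)
  have hi : IntervalIntegrable (fun t => Hs (σ t) t (g t) * rate p g σ t + Ht (σ t) t (g t) +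
      Hg (σ t) t (g t) * slopeR g t) volume 0 1 :=
    (((hσ.integrable_rate hg).continuousOn_mul cs).add ct.intervalIntegrable).add
      (hq.continuousOn_mul cg)
  refine ⟨hi, ?_⟩
  have hd : ∀ t ∈ Ioo (0 : ℝ) 1, HasDerivWithinAt (fun t => H (σ t) t (g t))
      (Hs (σ t) t (g t) * rate p g σ t + Ht (σ t) t (g t) + Hg (σ t) t (g t) * slopeR g t)
      (Ioi t) t := fun t ht => by
    have h1 : HasDerivWithinAt (fun u => (σ u, u, g u)) (rate p g σ t, 1, slopeR g t) (Ioi t) t :=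
      (hσ.deriv t ht).hasDerivWithinAt.prodMk ((hasDerivWithinAt_id t _).prodMk
        (hasDerivWithinAt_slopeR hg.concave ⟨by linarith [ht.1], ht.2⟩))
    have h := HasFDerivAt.comp_hasDerivWithinAt (f := fun u => (σ u, u, g u))
      (l := fun x : ℝ × ℝ × ℝ => H x.1 x.2.1 x.2.2) t
      (hH _ (hσ.mem_Ioo t ht) t ht _ (hg.pos_of_lt ⟨ht.1.le, ht.2⟩)) h1
    refine h.congr_deriv ?_
    simp
  rw [intervalIntegral.integral_eq_sub_of_hasDeriv_right_of_le (f := fun t => H (σ t) t (g t))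
    zero_le_one (hHc.comp hcurve hmaps) hd hi, hσ.zero, hσ.one]

/-- A null term: the derivative of a function of `(s, t)` along the transport. -/
theorem integral_null (hg : Regular g) (hσ : Transport p g σ) (Φ Φs Φt : ℝ → ℝ → ℝ)
    (hΦ : ∀ s ∈ Ioo (0 : ℝ) 1, ∀ t ∈ Ioo (0 : ℝ) 1, HasFDerivAt (fun x : ℝ × ℝ => Φ x.1 x.2)
      (Φs s t • ContinuousLinearMap.fst ℝ ℝ ℝ + Φt s t • ContinuousLinearMap.snd ℝ ℝ ℝ) (s, t))
    (hΦc : ContinuousOn (fun x : ℝ × ℝ => Φ x.1 x.2) (Icc 0 1 ×ˢ Icc 0 1))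
    (hΦsc : ContinuousOn (fun x : ℝ × ℝ => Φs x.1 x.2) (Icc 0 1 ×ˢ Icc 0 1))
    (hΦtc : ContinuousOn (fun x : ℝ × ℝ => Φt x.1 x.2) (Icc 0 1 ×ˢ Icc 0 1)) :
    IntervalIntegrable (fun t => Φs (σ t) t * rate p g σ t + Φt (σ t) t) volume 0 1 ∧
      ∫ t in (0 : ℝ)..1, (Φs (σ t) t * rate p g σ t + Φt (σ t) t) = Φ 1 1 - Φ 0 0 := by
  have hc : Continuous fun x : ℝ × ℝ × ℝ => (x.1, x.2.1) := by fun_prop
  have hm : MapsTo (fun x : ℝ × ℝ × ℝ => (x.1, x.2.1)) (Icc 0 1 ×ˢ Icc 0 1 ×ˢ Ici 0)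
      (Icc 0 1 ×ˢ Icc 0 1) := fun x hx => ⟨hx.1, hx.2.1⟩
  have h := integral_potential hg hσ (fun s t _ => Φ s t) (fun s t _ => Φs s t)
    (fun s t _ => Φt s t) (fun _ _ _ => 0) (fun s hs t ht y _ => ?_)
    (hΦc.comp hc.continuousOn hm) (hΦsc.comp hc.continuousOn hm) (hΦtc.comp hc.continuousOn hm)
    continuousOn_const
  · simpa using h
  · have hl : HasFDerivAt (fun x : ℝ × ℝ × ℝ => (x.1, x.2.1))
        ((ContinuousLinearMap.fst ℝ ℝ (ℝ × ℝ)).prod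
          ((ContinuousLinearMap.fst ℝ ℝ ℝ).comp (ContinuousLinearMap.snd ℝ ℝ (ℝ × ℝ)))) (s, t, y) :=
      ((ContinuousLinearMap.fst ℝ ℝ (ℝ × ℝ)).prod
        ((ContinuousLinearMap.fst ℝ ℝ ℝ).comp (ContinuousLinearMap.snd ℝ ℝ (ℝ × ℝ)))).hasFDerivAt
    refine (HasFDerivAt.comp (g := fun x : ℝ × ℝ => Φ x.1 x.2) (s, t, y) (hΦ s hs t ht) hl).congr_fderiv ?_
    ext <;> simp

/-- The obstacle quadratic in the slope: the inscribed ellipse bounds it from below. -/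
theorem sq_le_obstacle (hg : Regular g) {s : ℝ}
    (hge : ∀ t ∈ Icc (-1 : ℝ) 1, s * √(1 - t ^ 2) ≤ g t) (hs : 0 ≤ s) {t : ℝ}
    (ht : t ∈ Ioo (-1 : ℝ) 1) : s ^ 2 ≤ icept g t ^ 2 - slopeR g t ^ 2 := by
  set q := slopeR g t with hq
  set D := icept g t with hD
  have hDp : 0 < D := hg.icept_pos ht
  by_contra hno
  rw [not_le] at hno
  have hr : 0 < s ^ 2 + q ^ 2 := by nlinarith
  set R := √(s ^ 2 + q ^ 2) with hR
  have hRp : 0 < R := Real.sqrt_pos.2 hr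
  have hR2 : R ^ 2 = s ^ 2 + q ^ 2 := Real.sq_sqrt hr.le
  set x := -q / R with hx
  have hx1 : x ^ 2 ≤ 1 := by
    rw [hx, div_pow, neg_sq, hR2, div_le_one hr]; nlinarith
  have hxI : x ∈ Icc (-1 : ℝ) 1 := abs_le.1 (by nlinarith [sq_abs x, abs_nonneg x])
  have hc : √(1 - x ^ 2) = s / R := by
    rw [Real.sqrt_eq_iff_eq_sq (by linarith) (by positivity), hx, div_pow, div_pow, neg_sq, hR2]
    field_simp
    ring
  have h1 := (hge x hxI).trans (le_tangent hg.concave ht hxI)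
  rw [hc, ← hq] at h1
  have h2 : R ≤ D := by
    rw [hD, icept, ← hq]
    have e : s * (s / R) - q * x = R := by
      rw [hx]; field_simp; linarith
    linarith
  nlinarith

/-- The budget of a mixed obstacle. -/
theorem budget_mixed (hg : Regular g) {mu s : ℝ} (hs0 : 0 ≤ s) (hs : s ≤ 1)
    (hge : ∀ t ∈ Icc (-1 : ℝ) 1, s * √(1 - t ^ 2) ≤ g t) {w v : ℝ → ℝ} (hw : Continuous w)
    (hv : Continuous v) (hw0 : ∀ t ∈ Icc (0 : ℝ) 1, 0 ≤ w t) (hv0 : ∀ t ∈ Icc (0 : ℝ) 1, 0 ≤ v t)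
    (hvi : IntervalIntegrable (fun t => v t * (1 - (icept g t ^ 2 - slopeR g t ^ 2))) volume 0 1)
    (htot : (∫ t in (0 : ℝ)..1, w t * √(1 - t ^ 2) + 2 * v t) ≤ mu * half p / ((p : ℝ) + 2)) :
    (∫ t in (0 : ℝ)..1, w t * (√(1 - t ^ 2) - g t)) +
        (∫ t in (0 : ℝ)..1, v t * (1 - (icept g t ^ 2 - slopeR g t ^ 2))) ≤
      mu * half p / ((p : ℝ) + 2) * (1 - s) := by
  have hgc : ContinuousOn g (Icc 0 1) := hg.cont.mono (Icc_subset_Icc (by norm_num) le_rfl)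
  have i1 : IntervalIntegrable (fun t => w t * (√(1 - t ^ 2) - g t)) volume 0 1 :=
    ContinuousOn.intervalIntegrable (by rw [uIcc_of_le zero_le_one]; fun_prop)
  have i2 : IntervalIntegrable (fun t => (w t * √(1 - t ^ 2) + 2 * v t) * (1 - s)) volume 0 1 :=
    Continuous.intervalIntegrable (by fun_prop) _ _
  rw [← intervalIntegral.integral_add i1 hvi]
  refine (intervalIntegral.integral_mono_on_of_le_Ioo zero_le_one (i1.add hvi) i2
    fun t ht => ?_).trans ?_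
  · have h1 := hge t ⟨by linarith [ht.1], ht.2.le⟩
    have h2 := sq_le_obstacle hg hge hs0 (t := t) ⟨by linarith [ht.1], ht.2⟩
    have hw' := hw0 t (Ioo_subset_Icc_self ht)
    have hv' := hv0 t (Ioo_subset_Icc_self ht)
    nlinarith [mul_nonneg hw' (sub_nonneg.2 h1), mul_nonneg hv' (sub_nonneg.2 h2),
      mul_nonneg hv' (sq_nonneg (1 - s))]
  · rw [intervalIntegral.integral_mul_const]
    exact mul_le_mul_of_nonneg_right htot (by linarith)

/-- The budget with the deficit below the circle only. -/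
theorem budget_pos (hg : Regular g) {mu s : ℝ} (hs : s ≤ 1)
    (hge : ∀ t ∈ Icc (-1 : ℝ) 1, s * √(1 - t ^ 2) ≤ g t) {w : ℝ → ℝ} (hw : Continuous w)
    (hw0 : ∀ t ∈ Icc (0 : ℝ) 1, 0 ≤ w t)
    (htot : (∫ t in (0 : ℝ)..1, w t * √(1 - t ^ 2)) ≤ mu * half p / ((p : ℝ) + 2)) :
    ∫ t in (0 : ℝ)..1, w t * max (√(1 - t ^ 2) - g t) 0 ≤
      mu * half p / ((p : ℝ) + 2) * (1 - s) := by
  have hgc : ContinuousOn g (Icc 0 1) := hg.cont.mono (Icc_subset_Icc (by norm_num) le_rfl)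
  calc ∫ t in (0 : ℝ)..1, w t * max (√(1 - t ^ 2) - g t) 0
      ≤ ∫ t in (0 : ℝ)..1, w t * √(1 - t ^ 2) * (1 - s) := by
        refine intervalIntegral.integral_mono_on zero_le_one
          (ContinuousOn.intervalIntegrable (by rw [uIcc_of_le zero_le_one]; fun_prop))
          (Continuous.intervalIntegrable (by fun_prop) _ _) fun t ht => ?_
        rw [mul_assoc]
        refine mul_le_mul_of_nonneg_left (max_le ?_ (mul_nonneg (Real.sqrt_nonneg _)
          (by linarith))) (hw0 t ht)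
        have := hge t ⟨by linarith [ht.1], ht.2⟩
        linarith
    _ ≤ _ := by
        rw [intervalIntegral.integral_mul_const]
        exact mul_le_mul_of_nonneg_right htot (by linarith)

/-- The quadratic obstacle, integrated by parts. -/
theorem obstacle_parts (hg : Regular g) (hσ : Transport p g σ) {v v' : ℝ → ℝ} (hv : Continuous v)
    (hv' : Continuous v') (hd : ∀ t ∈ Ioo (0 : ℝ) 1, HasDerivAt v (v' t) t) (hv1 : v 1 = 0)
    (hq : IntervalIntegrable (fun t => v t * (1 - g t ^ 2) - (v t + t * v' t) * g t ^ 2 +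
      v t * (1 - t ^ 2) * slopeR g t ^ 2) volume 0 1) :
    IntervalIntegrable (fun t => v t * (1 - (icept g t ^ 2 - slopeR g t ^ 2))) volume 0 1 ∧
      ∫ t in (0 : ℝ)..1, v t * (1 - (icept g t ^ 2 - slopeR g t ^ 2)) =
        ∫ t in (0 : ℝ)..1, (v t * (1 - g t ^ 2) - (v t + t * v' t) * g t ^ 2 +
          v t * (1 - t ^ 2) * slopeR g t ^ 2) := by
  obtain ⟨hi, he⟩ := integral_potential hg hσ (fun _ t y => t * v t * y ^ 2) (fun _ _ _ => 0)
    (fun _ t y => (v t + t * v' t) * y ^ 2) (fun _ t y => 2 * t * v t * y)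
    (fun s _ t ht y _ => by
    have h1 : HasDerivAt (fun u => u * v u) (1 * v t + t * v' t) t := (hasDerivAt_id t).mul (hd t ht)
    have ht' : HasFDerivAt (fun x : ℝ × ℝ × ℝ => x.2.1)
        ((ContinuousLinearMap.fst ℝ ℝ ℝ).comp (ContinuousLinearMap.snd ℝ ℝ (ℝ × ℝ))) (s, t, y) :=
      ((ContinuousLinearMap.fst ℝ ℝ ℝ).comp (ContinuousLinearMap.snd ℝ ℝ (ℝ × ℝ))).hasFDerivAt
    have hy : HasFDerivAt (fun x : ℝ × ℝ × ℝ => x.2.2)
        ((ContinuousLinearMap.snd ℝ ℝ ℝ).comp (ContinuousLinearMap.snd ℝ ℝ (ℝ × ℝ))) (s, t, y) :=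
      ((ContinuousLinearMap.snd ℝ ℝ ℝ).comp (ContinuousLinearMap.snd ℝ ℝ (ℝ × ℝ))).hasFDerivAt
    refine ((h1.comp_hasFDerivAt (f := fun x : ℝ × ℝ × ℝ => x.2.1) (s, t, y) ht').mul
      ((hasDerivAt_pow 2 y).comp_hasFDerivAt (f := fun x : ℝ × ℝ × ℝ => x.2.2) (s, t, y) hy)).congr_fderiv ?_
    ext <;> simp <;> ring)
    (by fun_prop) (by fun_prop) (by fun_prop) (by fun_prop)
  · simp only [hv1, zero_mul, mul_zero, zero_add, sub_zero] at hi he
    have e : ∀ t, v t * (1 - (icept g t ^ 2 - slopeR g t ^ 2)) =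
        (v t * (1 - g t ^ 2) - (v t + t * v' t) * g t ^ 2 + v t * (1 - t ^ 2) * slopeR g t ^ 2) +
          ((v t + t * v' t) * g t ^ 2 + 2 * t * v t * g t * slopeR g t) := fun t => by
      rw [icept]; ring
    simp only [e]
    refine ⟨hq.add hi, ?_⟩
    rw [intervalIntegral.integral_add hq hi, he, add_zero]


/-- The calibrated lower bound with a field `k (s, t)` on the transport. -/
theorem linear_lower_transport (hg : Regular g) (hp : 2 ≤ p) {mu nu s : ℝ}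
    (hσ : Transport p g σ) (k ks kt : ℝ → ℝ → ℝ)
    (hk : ∀ u ∈ Ioo (0 : ℝ) 1, ∀ t ∈ Ioo (0 : ℝ) 1, HasFDerivAt (fun x : ℝ × ℝ => k x.1 x.2)
      (ks u t • ContinuousLinearMap.fst ℝ ℝ ℝ + kt u t • ContinuousLinearMap.snd ℝ ℝ ℝ) (u, t))
    (hkc : ContinuousOn (fun x : ℝ × ℝ => k x.1 x.2) (Icc 0 1 ×ˢ Icc 0 1))
    (hksc : ContinuousOn (fun x : ℝ × ℝ => ks x.1 x.2) (Icc 0 1 ×ˢ Icc 0 1))
    (hktc : ContinuousOn (fun x : ℝ × ℝ => kt x.1 x.2) (Icc 0 1 ×ˢ Icc 0 1))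
    (hk0 : k 0 0 = 0) (hk1 : k 1 1 = 1) :
    IntervalIntegrable (fun t => field p (coefPi p mu) (coefJ p nu) (k (σ t) t)
        (ks (σ t) t * rate p g σ t + kt (σ t) t) t (g t) +
        gain p (coefPi p mu) (coefJ p nu) (k (σ t) t) t (g t) (-slopeR g t)) volume 0 1 ∧
      half p / ((p : ℝ) + 1) * linearForm p mu nu g s =
        (∫ t in (0 : ℝ)..1, field p (coefPi p mu) (coefJ p nu) (k (σ t) t)
            (ks (σ t) t * rate p g σ t + kt (σ t) t) t (g t) +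
            gain p (coefPi p mu) (coefJ p nu) (k (σ t) t) t (g t) (-slopeR g t)) -
          circleValue p mu nu + mu * half p / ((p : ℝ) + 2) * (1 - s) := by
  have hu : uIcc (0 : ℝ) 1 = Icc 0 1 := uIcc_of_le zero_le_one
  have hst : ContinuousOn (fun t => (σ t, t)) (Icc (0 : ℝ) 1) := hσ.cont.prodMk continuousOn_id
  have hmaps : MapsTo (fun t => (σ t, t)) (Icc (0 : ℝ) 1) (Icc 0 1 ×ˢ Icc 0 1) :=
    fun t ht => ⟨hσ.mem t ht, ht⟩
  have hd : ∀ t ∈ Ioo (0 : ℝ) 1, HasDerivWithinAt (fun t => k (σ t) t)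
      (ks (σ t) t * rate p g σ t + kt (σ t) t) (Ioi t) t := fun t ht => by
    have h1 : HasDerivWithinAt (fun u => (σ u, u)) (rate p g σ t, 1) (Ioi t) t :=
      (hσ.deriv t ht).hasDerivWithinAt.prodMk (hasDerivWithinAt_id t _)
    refine (HasFDerivAt.comp_hasDerivWithinAt (f := fun u => (σ u, u))
      (l := fun x : ℝ × ℝ => k x.1 x.2) t (hk _ (hσ.mem_Ioo t ht) t ht) h1).congr_deriv ?_
    simp
  obtain ⟨h1, h2⟩ := identity hg hp (coefPi p mu) (coefJ p nu) (hkc.comp hst hmaps)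
    (show k (σ 0) 0 = 0 by rw [hσ.zero, hk0]) (show k (σ 1) 1 = 1 by rw [hσ.one, hk1]) hd
    (((hσ.integrable_rate hg).continuousOn_mul (g := fun t => ks (σ t) t)
      (hu.symm ▸ hksc.comp hst hmaps)).add
        (hktc.comp hst hmaps |>.intervalIntegrable_of_Icc zero_le_one))
  simp only [Function.comp_def] at h1 h2
  refine ⟨h1, ?_⟩
  rw [linearForm_eq hg, ← h2]

end Vale.Agent.P237.Petty.Ident
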