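import Vale.Agent.P237.Petty.Ident.Forms
import Vale.Agent.P237.Petty.Ident

/-!
# P237: the obstacle with a slope part

Every tangent line of a profile above an ellipse clears the ellipse, which gives a second bound
that is quadratic in the slope. It splits exactly into a slope free part and a square.
-/

namespace Vale.Agent.P237.Petty.Ident

open MeasureTheory Set Filter Topology intervalIntegral

variable {g : ℝ → ℝ}

/-- The tangents of a profile above the ellipse clear the ellipse. -/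
theorem sq_le_tangent (hg : Regular g) {s t : ℝ} (hs : 0 < s)
    (hge : ∀ t ∈ Icc (-1 : ℝ) 1, s * √(1 - t ^ 2) ≤ g t) (ht : t ∈ Ioo (-1 : ℝ) 1) :
    slopeR g t ^ 2 + s ^ 2 ≤ icept g t ^ 2 := by
  set σ := slopeR g t
  set r := √(σ ^ 2 + s ^ 2)
  have hr2 : r ^ 2 = σ ^ 2 + s ^ 2 := Real.sq_sqrt (by positivity)
  have hr : 0 < r := Real.sqrt_pos.2 (by positivity)
  have hy1 : |σ / r| ≤ 1 := by
    rw [abs_div, abs_of_pos hr, div_le_one hr]
    exact abs_le_of_sq_le_sq (by rw [hr2]; nlinarith [sq_nonneg s]) hr.le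
  have hsq : √(1 - (σ / r) ^ 2) = s / r := by
    rw [show 1 - (σ / r) ^ 2 = (s / r) ^ 2 by
      rw [div_pow, div_pow]; field_simp; linarith, Real.sqrt_sq (div_nonneg hs.le hr.le)]
  have hy2 : -(σ / r) ∈ Icc (-1 : ℝ) 1 :=
    ⟨by linarith [(abs_le.1 hy1).2], by linarith [(abs_le.1 hy1).1]⟩
  have h1 := le_tangent hg.concave ht hy2
  have h2 := hge _ hy2
  rw [neg_sq, hsq] at h2
  have h3 : r ≤ icept g t := by
    have e4 : s * (s / r) + σ / r * σ = r := by
      field_simp
      linarith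
    have e5 : g t + σ * (-(σ / r) - t) = icept g t - σ / r * σ := by
      rw [icept]
      ring
    linarith
  rw [← hr2]
  exact pow_le_pow_left₀ hr.le h3 2

/-- The square part of the obstacle bound. -/
noncomputable def obsGain (g : ℝ → ℝ) (t : ℝ) : ℝ :=
  ((1 - t ^ 2) * -slopeR g t - t * g t) ^ 2

/-- The exact split of the quadratic obstacle. -/
theorem obstacle_split (t a σ : ℝ) :
    (1 - t ^ 2) * (1 - ((a - t * σ) ^ 2 - σ ^ 2)) =
      (1 - t ^ 2 - a ^ 2) + ((1 - t ^ 2) * -σ - t * a) ^ 2 := by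
  ring

theorem integrable_obsGain (hg : Regular g) :
    IntervalIntegrable (obsGain g) volume 0 1 := by
  have hs : IntervalIntegrable (slopeR g) volume 0 1 := hg.integrable_slopeR.mono_set (by
    rw [uIcc_of_le zero_le_one, uIcc_of_le (by norm_num)]
    exact Icc_subset_Icc (by norm_num) le_rfl)
  obtain ⟨C, hC⟩ := isCompact_Icc.exists_bound_of_continuousOn hg.cont
  have hm := (intervalIntegrable_iff.1 hs).aestronglyMeasurable
  rw [intervalIntegrable_iff, uIoc_of_le zero_le_one]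
  rw [uIoc_of_le zero_le_one] at hm
  have hgm : AEStronglyMeasurable g (volume.restrict (Ioc (0 : ℝ) 1)) :=
    (hg.cont.mono (Ioc_subset_Icc_self.trans
      (Icc_subset_Icc (by norm_num) le_rfl))).aestronglyMeasurable measurableSet_Ioc
  refine IntegrableOn.of_bound measure_Ioc_lt_top
    ((((Continuous.aestronglyMeasurable (by fun_prop : Continuous fun t : ℝ => 1 - t ^ 2)).mul
      hm.neg).sub (continuous_id.aestronglyMeasurable.mul hgm)).pow 2) ((5 * |C|) ^ 2) ?_
  filter_upwards [ae_restrict_mem measurableSet_Ioc,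
    ae_restrict_of_ae (Measure.ae_ne volume (1 : ℝ))] with t ht h1
  have hto : t ∈ Ioo (-1 : ℝ) 1 := ⟨by linarith [ht.1], lt_of_le_of_ne ht.2 h1⟩
  have hb : ∀ y ∈ Icc (-1 : ℝ) 1, |g y| ≤ |C| := fun y hy => (hC y hy).trans (le_abs_self C)
  have b1 := abs_le.1 (hb t (Ioo_subset_Icc_self hto))
  have b2 := hg.nonneg 1 (by norm_num)
  have b3 := hg.nonneg (-1) (by norm_num)
  have t1 := le_tangent hg.concave hto (right_mem_Icc.2 (by norm_num : (-1 : ℝ) ≤ 1))
  have t2 := le_tangent hg.concave hto (left_mem_Icc.2 (by norm_num : (-1 : ℝ) ≤ 1))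
  have hC0 := abs_nonneg C
  have key : |(1 - t ^ 2) * -slopeR g t| ≤ 4 * |C| := by
    have ha : -(slopeR g t) * (1 - t) ≤ |C| := by nlinarith
    have hb' : slopeR g t * (1 + t) ≤ |C| := by nlinarith
    rw [abs_le]
    constructor
    · nlinarith [mul_le_mul_of_nonneg_left hb' (by linarith [hto.2] : (0 : ℝ) ≤ 1 - t),
        mul_le_mul_of_nonneg_right (by linarith [hto.1] : 1 - t ≤ 4) hC0]
    · nlinarith [mul_le_mul_of_nonneg_left ha (by linarith [hto.1] : (0 : ℝ) ≤ 1 + t),
        mul_le_mul_of_nonneg_right (by linarith [hto.2] : 1 + t ≤ 4) hC0]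
  have key2 : |t * g t| ≤ |C| := by
    rw [abs_mul]
    calc |t| * |g t| ≤ 1 * |C| :=
        mul_le_mul (abs_le.2 ⟨hto.1.le, hto.2.le⟩) (abs_le.2 b1) (abs_nonneg _) zero_le_one
      _ = |C| := one_mul _
  show ‖((1 - t ^ 2) * -slopeR g t - t * g t) ^ 2‖ ≤ _
  rw [norm_pow, Real.norm_eq_abs]
  exact pow_le_pow_left₀ (abs_nonneg _) ((abs_sub _ _).trans (by linarith)) 2

/-- The linear functional with a budget shared between the two obstacle bounds. -/
theorem linear_lower_half (hg : Regular g) (p : ℕ) {mu nu s : ℝ} (hs0 : 0 < s)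
    (hs : s ≤ 1) (hge : ∀ t ∈ Icc (-1 : ℝ) 1, s * √(1 - t ^ 2) ≤ g t) {w v : ℝ → ℝ}
    (hw : Continuous w) (hv : Continuous v) (hw0 : ∀ t ∈ Icc (0 : ℝ) 1, 0 ≤ w t)
    (hv0 : ∀ t ∈ Icc (0 : ℝ) 1, 0 ≤ v t)
    (htot : (∫ t in (0 : ℝ)..1, w t * √(1 - t ^ 2) + 2 * (v t * (1 - t ^ 2))) ≤
      mu * half p / ((p : ℝ) + 2)) :
    halfForm p (coefPi p mu) (coefJ p nu) g - circleValue p mu nu +
        (∫ t in (0 : ℝ)..1,
          (w t * (√(1 - t ^ 2) - g t) + v t * (1 - t ^ 2 - g t ^ 2) + v t * obsGain g t)) ≤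
      half p / ((p : ℝ) + 1) * linearForm p mu nu g s := by
  have hgc : ContinuousOn g (Icc 0 1) := hg.cont.mono (Icc_subset_Icc (by norm_num) le_rfl)
  have hobs : IntervalIntegrable
      (fun t => w t * (√(1 - t ^ 2) - g t) + v t * (1 - t ^ 2 - g t ^ 2) + v t * obsGain g t)
      volume 0 1 :=
    (ContinuousOn.intervalIntegrable (by rw [uIcc_of_le zero_le_one]; fun_prop)).add
      ((integrable_obsGain hg).continuousOn_mul hv.continuousOn)
  have hbud : ∫ t in (0 : ℝ)..1,
      (w t * (√(1 - t ^ 2) - g t) + v t * (1 - t ^ 2 - g t ^ 2) + v t * obsGain g t) ≤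
        mu * half p / ((p : ℝ) + 2) * (1 - s) := by
    calc _ ≤ ∫ t in (0 : ℝ)..1, (w t * √(1 - t ^ 2) + 2 * (v t * (1 - t ^ 2))) * (1 - s) := by
          refine intervalIntegral.integral_mono_ae_restrict zero_le_one hobs
            (Continuous.intervalIntegrable (by fun_prop) _ _) ?_
          filter_upwards [ae_restrict_mem measurableSet_Icc,
            ae_restrict_of_ae (Measure.ae_ne volume (1 : ℝ))] with t ht h1
          have hto : t ∈ Ioo (-1 : ℝ) 1 := ⟨by linarith [ht.1], lt_of_le_of_ne ht.2 h1⟩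
          have a1 := hge t (Ioo_subset_Icc_self hto)
          have a2 := sq_le_tangent hg hs0 hge hto
          have a3 : 0 ≤ 1 - t ^ 2 := by nlinarith [hto.1, hto.2]
          have hsplit := obstacle_split t (g t) (slopeR g t)
          have a4 : (1 - t ^ 2 - g t ^ 2) + obsGain g t ≤ (1 - t ^ 2) * (2 * (1 - s)) := by
            rw [obsGain, ← hsplit]
            refine mul_le_mul_of_nonneg_left ?_ a3
            rw [icept] at a2
            nlinarith [mul_nonneg (sub_nonneg.2 hs) (sub_nonneg.2 hs)]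
          have a5 : √(1 - t ^ 2) - g t ≤ √(1 - t ^ 2) * (1 - s) := by linarith
          have := mul_le_mul_of_nonneg_left a5 (hw0 t ht)
          have := mul_le_mul_of_nonneg_left a4 (hv0 t ht)
          linarith
      _ ≤ _ := by
          rw [intervalIntegral.integral_mul_const]
          exact mul_le_mul_of_nonneg_right htot (by linarith)
  have hL : (∫ t in (0 : ℝ)..1, identL p (coefPi p mu) (coefJ p nu) g t) =
      ∫ t in (0 : ℝ)..1, g t ^ p + slopeTerm p (coefPi p mu) (coefJ p nu) g t := rfl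
  rw [halfForm, hL, linearForm_eq hg]
  linarith

/-- The calibrated integrand is the slope free field. -/
theorem identK_eq (p : ℕ) (M1 M2 : ℝ) (k kt ks Φt Φs : ℝ → ℝ → ℝ) (s t a r : ℝ) :
    identK p M1 M2 k kt ks Φt Φs s t a r =
      field p M1 M2 (k s t) (kt s t + r * ks s t) t a - Φt s t - r * Φs s t := by
  simp only [identK, field, tangentT, potT, potK]
  ring

/-- The constants cancel: at the circle the calibrated integrand gives the circle value. -/
theorem integral_identK_circle {p : ℕ} (hp : 2 ≤ p) (mu nu : ℝ)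
    (k kt ks Φ Φt Φs : ℝ → ℝ → ℝ) (hk : ∀ t ∈ Icc (0 : ℝ) 1, k t t = t)
    (hd : ∀ t ∈ Icc (0 : ℝ) 1, kt t t + ks t t = 1)
    (hΦ : ∀ t ∈ Ioo (0 : ℝ) 1, HasDerivAt (fun x => Φ x x) (Φt t t + Φs t t) t)
    (hΦc : ContinuousOn (fun x => Φ x x) (Icc 0 1))
    (hΦi : IntervalIntegrable (fun t => Φt t t + Φs t t) volume 0 1) :
    (∫ t in (0 : ℝ)..1, identK p (coefPi p mu) (coefJ p nu) k kt ks Φt Φs t t √(1 - t ^ 2) 1) +
      (Φ 1 1 - Φ 0 0) = circleValue p mu nu := by
  have e : ∀ t ∈ uIcc (0 : ℝ) 1, identK p (coefPi p mu) (coefJ p nu) k kt ks Φt Φs t t √(1 - t ^ 2) 1 =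
      field p (coefPi p mu) (coefJ p nu) t 1 t √(1 - t ^ 2) - (Φt t t + Φs t t) := fun t ht => by
    rw [uIcc_of_le zero_le_one] at ht
    rw [identK_eq, hk t ht, one_mul, hd t ht]
    ring
  rw [intervalIntegral.integral_congr e]
  rw [intervalIntegral.integral_sub
      (Continuous.intervalIntegrable (by simp only [field, tangentT, potT, potK]; fun_prop) 0 1) hΦi,
    integral_field_circle hp, integral_eq_sub_of_hasDerivAt_of_le zero_le_one hΦc hΦ hΦi]
  ring

end Vale.Agent.P237.Petty.Ident
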